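import Mathlib.Analysis.InnerProductSpace.l2Space
import Mathlib.Analysis.InnerProductSpace.MeanErgodic
import Mathlib.Analysis.InnerProductSpace.Adjoint

/-!
# A kernel lemma for `ℓ²(Γ)`-operators (block C of P284, helper574)

A bounded operator `ℓ²(Γ)^I → ℓ²(Γ)^J` which commutes with the left translations of the group `Γ` and
`|J| < |I|` has a kernel. The proof uses the trace `A ↦ ∑ i, (A δ_{(1,i)}) (1,i)` and the mean ergodic
theorem.
-/

open Filter Set Topology
open scoped ENNReal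

noncomputable section

namespace Vale.Agent.P284.H574

/-- `ℓ²` -/
abbrev E (ι : Type) := lp (fun _ : ι => ℂ) 2

variable {ι κ μ : Type}

open Classical in
/-- the basis vectors -/
def dl (i : ι) : E ι := lp.single 2 i (1 : ℂ)

theorem dl_self (i : ι) : dl i i = 1 := by
  classical
  rw [dl, lp.single_apply_self]

theorem dl_ne {i j : ι} (h : j ≠ i) : dl i j = 0 := by
  classical
  exact lp.single_apply_ne (E := fun _ : ι => ℂ) 2 i (1 : ℂ) h

theorem inner_dl (i : ι) (f : E ι) : inner ℂ (dl i) f = f i := by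
  classical
  rw [dl, lp.inner_single_left]
  simp

theorem inner_dl' (i : ι) (f : E ι) : inner ℂ f (dl i) = (starRingEnd ℂ) (f i) := by
  rw [← inner_conj_symm, inner_dl]

theorem norm_sq (f : E ι) : ‖f‖ ^ 2 = ∑' i, ‖f i‖ ^ 2 := by
  have h := lp.norm_rpow_eq_tsum (p := 2) (by norm_num) f
  simpa using h

/-- the value of an operator -/
theorem hasSum_apply (B : E ι →L[ℂ] E κ) (f : E ι) (z : κ) :
    HasSum (fun w => f w * B (dl w) z) (B f z) := by
  classical
  have h := lp.hasSum_single (p := 2) (by norm_num) f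
  have h2 := (h.mapL B).mapL (lp.evalCLM ℂ (fun _ : κ => ℂ) 2 z)
  have h3 : (fun w => f w * B (dl w) z) =
      fun w => (lp.evalCLM ℂ (fun _ : κ => ℂ) 2 z) (B (lp.single 2 w (f w))) := by
    funext w
    have : lp.single (E := fun _ : ι => ℂ) 2 w (f w) = f w • dl w := by
      rw [dl, ← lp.single_smul]; simp
    rw [this, map_smul, map_smul]
    rfl
  rw [h3]
  exact h2

/-! ### The Schur test -/

/-- row and column sums of the matrix `m` are at most `R` -/
structure Sch (m : κ → ι → ℂ) (R : ℝ) : Prop where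
  nonneg : 0 ≤ R
  row : ∀ x, Summable fun y => ‖m x y‖
  row_le : ∀ x, ∑' y, ‖m x y‖ ≤ R
  col : ∀ y, Summable fun x => ‖m x y‖
  col_le : ∀ y, ∑' x, ‖m x y‖ ≤ R

theorem Sch.sm {m : κ → ι → ℂ} {R : ℝ} (h : Sch m R) (c : E ι) (x : κ) :
    Summable fun y => ‖m x y * c y‖ := by
  refine Summable.of_nonneg_of_le (fun y => norm_nonneg _) (fun y => ?_) ((h.row x).mul_right ‖c‖)
  rw [norm_mul]
  exact mul_le_mul_of_nonneg_left (lp.norm_apply_le_norm (by norm_num) c y) (norm_nonneg _)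

theorem Sch.sm2 {m : κ → ι → ℂ} {R : ℝ} (h : Sch m R) (c : E ι) (x : κ) :
    Summable fun y => ‖m x y‖ * ‖c y‖ ^ 2 := by
  refine Summable.of_nonneg_of_le (fun y => by positivity) (fun y => ?_)
    ((h.row x).mul_right (‖c‖ ^ 2))
  have := lp.norm_apply_le_norm (p := 2) (by norm_num) c y
  gcongr

theorem Sch.cs {m : κ → ι → ℂ} {R : ℝ} (h : Sch m R) (c : E ι) (x : κ) :
    ‖∑' y, m x y * c y‖ ^ 2 ≤ R * ∑' y, ‖m x y‖ * ‖c y‖ ^ 2 := by
  have h1 : ‖∑' y, m x y * c y‖ ≤ ∑' y, ‖m x y * c y‖ := norm_tsum_le_tsum_norm (h.sm c x)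
  have hG : 0 ≤ ∑' y, ‖m x y‖ * ‖c y‖ ^ 2 := tsum_nonneg fun y => by positivity
  have h2 : ∑' y, ‖m x y * c y‖ ≤ Real.sqrt (R * ∑' y, ‖m x y‖ * ‖c y‖ ^ 2) := by
    refine (h.sm c x).tsum_le_of_sum_le fun s => ?_
    refine Real.le_sqrt_of_sq_le ?_
    refine (Finset.sum_sq_le_sum_mul_sum_of_sq_le_mul s (r := fun y => ‖m x y * c y‖)
      (f := fun y => ‖m x y‖) (g := fun y => ‖m x y‖ * ‖c y‖ ^ 2)
      (fun y _ => norm_nonneg _) (fun y _ => by positivity) (fun y _ => by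
        rw [norm_mul]; exact le_of_eq (by ring))).trans ?_
    refine mul_le_mul ?_ ?_ (Finset.sum_nonneg fun y _ => by positivity) h.nonneg
    · exact ((h.row x).sum_le_tsum s fun y _ => norm_nonneg _).trans (h.row_le x)
    · exact (h.sm2 c x).sum_le_tsum s fun y _ => by positivity
  calc ‖∑' y, m x y * c y‖ ^ 2 ≤ Real.sqrt (R * ∑' y, ‖m x y‖ * ‖c y‖ ^ 2) ^ 2 := by
        gcongr; exact h1.trans h2
    _ = _ := Real.sq_sqrt (mul_nonneg h.nonneg hG)

theorem Sch.fin {m : κ → ι → ℂ} {R : ℝ} (h : Sch m R) (c : E ι) (s : Finset κ) :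
    ∑ x ∈ s, ‖∑' y, m x y * c y‖ ^ 2 ≤ (R * ‖c‖) ^ 2 := by
  calc ∑ x ∈ s, ‖∑' y, m x y * c y‖ ^ 2 ≤ ∑ x ∈ s, R * ∑' y, ‖m x y‖ * ‖c y‖ ^ 2 :=
        Finset.sum_le_sum fun x _ => h.cs c x
    _ = R * ∑' y, ∑ x ∈ s, ‖m x y‖ * ‖c y‖ ^ 2 := by
        rw [← Finset.mul_sum, Summable.tsum_finsetSum fun x _ => h.sm2 c x]
    _ ≤ R * ∑' y, R * ‖c y‖ ^ 2 := by
        refine mul_le_mul_of_nonneg_left ?_ h.nonneg
        have hc : Summable fun y => ‖c y‖ ^ 2 := by
          have := (lp.memℓp c).summable (by norm_num)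
          simpa using this
        refine Summable.tsum_le_tsum (fun y => ?_) (summable_sum fun x _ => h.sm2 c x)
          (hc.mul_left R)
        rw [← Finset.sum_mul]
        refine mul_le_mul_of_nonneg_right ?_ (by positivity)
        exact ((h.col y).sum_le_tsum s fun x _ => norm_nonneg _).trans (h.col_le y)
    _ = (R * ‖c‖) ^ 2 := by
        rw [tsum_mul_left, ← norm_sq]; ring

/-- the operator with the matrix `m` -/
def opm (m : κ → ι → ℂ) (R : ℝ) (h : Sch m R) : E ι →L[ℂ] E κ :=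
  LinearMap.mkContinuous
    { toFun := fun c => ⟨fun x => ∑' y, m x y * c y, by
        refine memℓp_gen' (C := (R * ‖c‖) ^ 2) fun s => ?_
        simpa using h.fin c s⟩
      map_add' := fun c d => by
        ext x
        change ∑' y, m x y * (c y + d y) = (∑' y, m x y * c y) + ∑' y, m x y * d y
        rw [← ((h.sm c x).of_norm).tsum_add ((h.sm d x).of_norm)]
        exact tsum_congr fun y => mul_add _ _ _
      map_smul' := fun a c => by
        ext x
        change ∑' y, m x y * (a * c y) = a * ∑' y, m x y * c y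
        rw [← tsum_mul_left]
        exact tsum_congr fun y => by ring }
    R (fun c => by
      refine lp.norm_le_of_forall_sum_le (p := 2) (by norm_num)
        (mul_nonneg h.nonneg (norm_nonneg c)) fun s => ?_
      simpa using h.fin c s)

theorem opm_apply (m : κ → ι → ℂ) (R : ℝ) (h : Sch m R) (c : E ι) (x : κ) :
    opm m R h c x = ∑' y, m x y * c y := rfl

theorem opm_dl (m : κ → ι → ℂ) (R : ℝ) (h : Sch m R) (y : ι) (x : κ) :
    opm m R h (dl y) x = m x y := by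
  rw [opm_apply, tsum_eq_single y]
  · rw [dl_self, mul_one]
  · intro w hw
    rw [dl_ne hw, mul_zero]

/-! ### Equivariant operators and the trace -/

section
variable {Γ I J L : Type} [Group Γ]

/-- invariance of the matrix coefficients under the left translations -/
def Eqv (A : E (Γ × I) →L[ℂ] E (Γ × J)) : Prop :=
  ∀ (u : Γ) (p : Γ × J) (q : Γ × I), A (dl (u * q.1, q.2)) (u * p.1, p.2) = A (dl q) p

theorem Eqv.comp {A : E (Γ × I) →L[ℂ] E (Γ × J)} {B : E (Γ × J) →L[ℂ] E (Γ × L)}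
    (hB : Eqv B) (hA : Eqv A) : Eqv (B ∘L A) := by
  intro u p q
  have h1 := hasSum_apply B (A (dl (u * q.1, q.2))) (u * p.1, p.2)
  have h2 := hasSum_apply B (A (dl q)) p
  let e : Γ × J ≃ Γ × J := (Equiv.mulLeft u).prodCongr (Equiv.refl J)
  have h3 := e.hasSum_iff.2 h1
  have h4 : (fun w : Γ × J => A (dl q) w * B (dl w) p) =
      ((fun w => A (dl (u * q.1, q.2)) w * B (dl w) (u * p.1, p.2)) ∘ e) := by
    funext w
    change _ = A (dl (u * q.1, q.2)) (u * w.1, w.2) * B (dl (u * w.1, w.2)) (u * p.1, p.2)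
    rw [hA u w q, hB u p w]
  rw [h4] at h2
  exact h3.unique h2

theorem Eqv.adjoint {A : E (Γ × I) →L[ℂ] E (Γ × J)} (hA : Eqv A) :
    Eqv (ContinuousLinearMap.adjoint A) := by
  intro u p q
  rw [← inner_dl, ContinuousLinearMap.adjoint_inner_right, inner_dl', hA u q p, ← inner_dl',
    ← ContinuousLinearMap.adjoint_inner_right, inner_dl]

theorem Eqv.id : Eqv (ContinuousLinearMap.id ℂ (E (Γ × I))) := by
  intro u p q
  change (dl (u * q.1, q.2) : E (Γ × I)) (u * p.1, p.2) = (dl q : E (Γ × I)) p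
  by_cases h : p = q
  · rw [h, dl_self, dl_self]
  · rw [dl_ne h, dl_ne]
    intro h2
    apply h
    rw [Prod.mk.injEq] at h2
    exact Prod.ext (mul_left_cancel h2.1) h2.2

theorem Eqv.sub {A B : E (Γ × I) →L[ℂ] E (Γ × J)} (hA : Eqv A) (hB : Eqv B) : Eqv (A - B) := by
  intro u p q
  change A (dl (u * q.1, q.2)) (u * p.1, p.2) - B (dl (u * q.1, q.2)) (u * p.1, p.2) =
    A (dl q) p - B (dl q) p
  rw [hA, hB]

theorem Eqv.pow {f : E (Γ × I) →L[ℂ] E (Γ × I)} (hf : Eqv f) (j : ℕ) : Eqv (f ^ j) := by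
  induction j with
  | zero => exact Eqv.id
  | succ j ih => rw [pow_succ]; exact ih.comp hf

variable [Fintype I] [Fintype J]

/-- the trace -/
def tr (A : E (Γ × I) →L[ℂ] E (Γ × I)) : ℂ := ∑ i, A (dl (1, i)) (1, i)

theorem tr_sub (A B : E (Γ × I) →L[ℂ] E (Γ × I)) : tr (A - B) = tr A - tr B := by
  unfold tr
  rw [← Finset.sum_sub_distrib]
  rfl

theorem tr_id : tr (ContinuousLinearMap.id ℂ (E (Γ × I))) = Fintype.card I := by
  unfold tr
  have : ∀ i : I, (ContinuousLinearMap.id ℂ (E (Γ × I))) (dl (1, i)) (1, i) = 1 := fun i =>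
    dl_self _
  rw [Finset.sum_congr rfl fun i _ => this i]
  simp

theorem tr_comm {A : E (Γ × I) →L[ℂ] E (Γ × J)} {B : E (Γ × J) →L[ℂ] E (Γ × I)}
    (hA : Eqv A) (hB : Eqv B) : tr (B ∘L A) = tr (A ∘L B) := by
  have h1 : ∀ i, HasSum (fun w : Γ × J => A (dl (1, i)) w * B (dl w) (1, i))
      ((B ∘L A) (dl (1, i)) (1, i)) := fun i => hasSum_apply B (A (dl (1, i))) (1, i)
  have h2 : ∀ j, HasSum (fun w : Γ × I => B (dl (1, j)) w * A (dl w) (1, j))
      ((A ∘L B) (dl (1, j)) (1, j)) := fun j => hasSum_apply A (B (dl (1, j))) (1, j)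
  have h3 : HasSum (fun γ : Γ => ∑ i, ∑ j, A (dl (1, i)) (γ, j) * B (dl (γ, j)) (1, i))
      (tr (B ∘L A)) := by
    refine hasSum_sum fun i _ => ?_
    exact (h1 i).prod_fiberwise fun γ => hasSum_fintype _
  have h4 : HasSum (fun γ : Γ => ∑ j, ∑ i, B (dl (1, j)) (γ, i) * A (dl (γ, i)) (1, j))
      (tr (A ∘L B)) := by
    refine hasSum_sum fun i _ => ?_
    exact (h2 i).prod_fiberwise fun γ => hasSum_fintype _
  have h5 := (Equiv.inv Γ).hasSum_iff.2 h4
  refine h3.unique ?_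
  convert h5 using 1
  funext γ
  change _ = ∑ j, ∑ i, B (dl (1, j)) (γ⁻¹, i) * A (dl (γ⁻¹, i)) (1, j)
  rw [Finset.sum_comm]
  refine Finset.sum_congr rfl fun j _ => Finset.sum_congr rfl fun i _ => ?_
  have e1 := hA γ⁻¹ (γ, j) (1, i)
  have e2 := hB γ⁻¹ (1, i) (γ, j)
  simp only [inv_mul_cancel, mul_one] at e1 e2
  rw [← e1, ← e2, mul_comm]

omit [Group Γ] [Fintype I] in
theorem pow_pos {f : E (Γ × I) →L[ℂ] E (Γ × I)} (hf : IsSelfAdjoint f)
    (hp : ∀ x, 0 ≤ (inner ℂ x (f x)).re) (j : ℕ) (x : E (Γ × I)) :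
    0 ≤ (inner ℂ x ((f ^ j) x)).re := by
  have hs : ∀ k : ℕ, ∀ y, inner ℂ x ((f ^ k) y) = inner ℂ ((f ^ k) x) y := by
    intro k y
    have h := (hf.pow k).adjoint_eq
    rw [← ContinuousLinearMap.adjoint_inner_right, h]
  rcases Nat.even_or_odd' j with ⟨k, rfl | rfl⟩
  · rw [two_mul, pow_add]
    change 0 ≤ (inner ℂ x ((f ^ k) ((f ^ k) x))).re
    rw [hs]
    exact inner_self_nonneg (𝕜 := ℂ)
  · rw [two_mul, add_assoc, pow_add, pow_succ']
    change 0 ≤ (inner ℂ x ((f ^ k) (f ((f ^ k) x)))).re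
    rw [hs]
    exact hp _

/-- the kernel lemma for contractions -/
theorem ker_aux (hc : Fintype.card J < Fintype.card I) (T : E (Γ × I) →L[ℂ] E (Γ × J))
    (hT : Eqv T) (hn : ‖T‖ ≤ 1) (hinj : ∀ c, T c = 0 → c = 0) : False := by
  set Ts : E (Γ × J) →L[ℂ] E (Γ × I) := ContinuousLinearMap.adjoint T with hTs
  have hTsn : ‖Ts‖ ≤ 1 := by
    rw [hTs]
    simpa using hn
  have hTsE : Eqv Ts := hT.adjoint
  set f : E (Γ × I) →L[ℂ] E (Γ × I) := 1 - Ts ∘L T with hf
  set g : E (Γ × J) →L[ℂ] E (Γ × J) := 1 - T ∘L Ts with hg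
  have hfE : Eqv f := Eqv.id.sub (hTsE.comp hT)
  have hgE : Eqv g := Eqv.id.sub (hT.comp hTsE)
  have hTx : ∀ x, ‖T x‖ ≤ ‖x‖ := fun x => by
    simpa using T.le_of_opNorm_le hn x
  have hTsx : ∀ x, ‖Ts x‖ ≤ ‖x‖ := fun x => by
    simpa using Ts.le_of_opNorm_le hTsn x
  have hfx : ∀ x, f x = x - Ts (T x) := fun x => rfl
  have hgx : ∀ x, g x = x - T (Ts x) := fun x => rfl
  -- `f` is a contraction
  have hfn : ‖f‖ ≤ 1 := by
    refine f.opNorm_le_bound zero_le_one fun x => ?_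
    rw [one_mul, hfx]
    have h1 := norm_sub_sq (𝕜 := ℂ) x (Ts (T x))
    have h2 : inner ℂ x (Ts (T x)) = ((‖T x‖ ^ 2 : ℝ) : ℂ) := by
      rw [hTs, ContinuousLinearMap.adjoint_inner_right, inner_self_eq_norm_sq_to_K]
      norm_cast
    have h3 : RCLike.re (inner ℂ x (Ts (T x))) = ‖T x‖ ^ 2 := by
      rw [h2]; exact Complex.ofReal_re _
    rw [h3] at h1
    have h4 : ‖Ts (T x)‖ ≤ ‖T x‖ := hTsx _
    have h5 : ‖x - Ts (T x)‖ ^ 2 ≤ ‖x‖ ^ 2 := by
      rw [h1]
      nlinarith [norm_nonneg (Ts (T x)), norm_nonneg (T x)]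
    exact (sq_le_sq₀ (norm_nonneg _) (norm_nonneg _)).1 h5
  -- intertwining
  have hint : ∀ j : ℕ, T ∘L (f ^ j) = (g ^ j) ∘L T := by
    intro j
    induction j with
    | zero => rfl
    | succ j ih =>
      ext1 x
      have e1 : T ((f ^ j) (f x)) = (g ^ j) (T (f x)) := congrArg (fun A => A (f x)) ih
      have e2 : T (f x) = g (T x) := by
        rw [hfx, hgx, map_sub]
      rw [pow_succ, pow_succ]
      change T ((f ^ j) (f x)) = (g ^ j) (g (T x))
      rw [e1, e2]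
  -- the traces
  have htr : ∀ j : ℕ, tr (f ^ j) - tr (f ^ (j + 1)) = tr (g ^ j) - tr (g ^ (j + 1)) := by
    intro j
    rw [← tr_sub, ← tr_sub]
    have e1 : f ^ j - f ^ (j + 1) = Ts ∘L ((g ^ j) ∘L T) := by
      rw [← hint]
      ext1 x
      rw [pow_succ']
      change (f ^ j) x - f ((f ^ j) x) = Ts (T ((f ^ j) x))
      rw [hfx ((f ^ j) x)]
      abel
    have e2 : g ^ j - g ^ (j + 1) = ((g ^ j) ∘L T) ∘L Ts := by
      ext1 x
      rw [pow_succ]
      change (g ^ j) x - (g ^ j) (g x) = (g ^ j) (T (Ts x))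
      rw [hgx x, map_sub]
      abel
    rw [e1, e2]
    exact tr_comm ((hgE.pow j).comp hT) hTsE
  have htr2 : ∀ j : ℕ, tr (f ^ j) = tr (g ^ j) + ((Fintype.card I : ℂ) - Fintype.card J) := by
    intro j
    induction j with
    | zero =>
      have e1 : tr (f ^ 0) = Fintype.card I := tr_id
      have e2 : tr (g ^ 0) = Fintype.card J := tr_id
      rw [e1, e2]; ring
    | succ j ih =>
      have := htr j
      rw [ih] at this
      linear_combination -this
  -- positivity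
  have hgsa : IsSelfAdjoint g := by
    rw [hg]
    refine (IsSelfAdjoint.one _).sub ?_
    rw [ContinuousLinearMap.isSelfAdjoint_iff']
    rw [ContinuousLinearMap.adjoint_comp, hTs, ContinuousLinearMap.adjoint_adjoint]
  have hgpos : ∀ x, 0 ≤ (inner ℂ x (g x)).re := by
    intro x
    have h2 : inner ℂ x (g x) = ((‖x‖ ^ 2 - ‖Ts x‖ ^ 2 : ℝ) : ℂ) := by
      rw [hgx, inner_sub_right, inner_self_eq_norm_sq_to_K]
      have : inner ℂ x (T (Ts x)) = ((‖Ts x‖ ^ 2 : ℝ) : ℂ) := by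
        rw [← ContinuousLinearMap.adjoint_inner_left, ← hTs, inner_self_eq_norm_sq_to_K]
        norm_cast
      rw [this]
      push_cast
      rfl
    rw [h2, Complex.ofReal_re]
    have := hTsx x
    nlinarith [norm_nonneg x, norm_nonneg (Ts x)]
  have hgtr : ∀ j : ℕ, 0 ≤ (tr (g ^ j)).re := by
    intro j
    unfold tr
    rw [Complex.re_sum]
    refine Finset.sum_nonneg fun i _ => ?_
    rw [← inner_dl]
    exact pow_pos hgsa hgpos j _
  have hftr : ∀ j : ℕ, 1 ≤ (tr (f ^ j)).re := by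
    intro j
    rw [htr2]
    have h1 : (Fintype.card J : ℝ) + 1 ≤ Fintype.card I := by exact_mod_cast hc
    have h2 := hgtr j
    simp only [Complex.add_re, Complex.sub_re, Complex.natCast_re]
    linarith
  -- the mean ergodic theorem
  have hlim : ∀ i : I, Tendsto (fun n : ℕ => (birkhoffAverage ℂ f _root_.id n (dl (1, i)) :
      E (Γ × I)) (1, i)) atTop (𝓝 0) := by
    intro i
    have h1 := f.tendsto_birkhoffAverage_orthogonalProjection hfn (dl (1, i))
    have h2 : ((f.eqLocus (1 : E (Γ × I) →L[ℂ] E (Γ × I))).orthogonalProjectionOnto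
        (dl (1, i)) : E (Γ × I)) = 0 := by
      have h3 := ((f.eqLocus (1 : E (Γ × I) →L[ℂ] E (Γ × I))).orthogonalProjectionOnto
        (dl (1, i))).2
      have h4 : f ((f.eqLocus (1 : E (Γ × I) →L[ℂ] E (Γ × I))).orthogonalProjectionOnto
        (dl (1, i)) : E (Γ × I)) = _ := h3
      apply hinj
      have h5 : ∀ y : E (Γ × I), f y = y → T y = 0 := by
        intro y hy
        rw [hfx] at hy
        have h6 : Ts (T y) = 0 := by
          have : y - Ts (T y) - y = 0 := by rw [hy, sub_self]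
          rw [sub_sub_cancel_left, neg_eq_zero] at this
          exact this
        have h7 : inner ℂ (T y) (T y) = 0 := by
          rw [← ContinuousLinearMap.adjoint_inner_right, ← hTs, h6, inner_zero_right]
        exact inner_self_eq_zero.1 h7
      exact h5 _ h4
    rw [h2] at h1
    exact ((lp.evalCLM ℂ (fun _ : Γ × I => ℂ) 2 (1, i)).continuous.tendsto 0).comp h1
  have hlim2 : Tendsto (fun n : ℕ => ∑ i : I, (birkhoffAverage ℂ f _root_.id n (dl (1, i)) :
      E (Γ × I)) (1, i)) atTop (𝓝 0) := by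
    have := tendsto_finsetSum Finset.univ fun i (_ : i ∈ (Finset.univ : Finset I)) => hlim i
    simpa using this
  have hval : ∀ n : ℕ, ∑ i : I, (birkhoffAverage ℂ f _root_.id n (dl (1, i)) :
      E (Γ × I)) (1, i) = (n : ℂ)⁻¹ * ∑ k ∈ Finset.range n, tr (f ^ k) := by
    intro n
    unfold tr
    rw [Finset.sum_comm, Finset.mul_sum]
    refine Finset.sum_congr rfl fun i _ => ?_
    unfold birkhoffAverage birkhoffSum
    have e : ∀ k : ℕ, (⇑f)^[k] (dl (1, i)) = (f ^ k) (dl (1, i)) := fun k => by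
      induction k with
      | zero => rfl
      | succ k ih => rw [Function.iterate_succ_apply', ih, pow_succ']; rfl
    change (n : ℂ)⁻¹ * (∑ k ∈ Finset.range n, _root_.id ((⇑f)^[k] (dl (1, i))) :
      E (Γ × I)) (1, i) = _
    rw [lp.coeFn_sum, Finset.sum_apply]
    congr 1
    refine Finset.sum_congr rfl fun k _ => ?_
    rw [id, e]
  have hre := (Complex.continuous_re.tendsto _).comp hlim2
  have hle : ∀ᶠ n : ℕ in atTop, 1 ≤ (∑ i : I, (birkhoffAverage ℂ f _root_.id n (dl (1, i)) :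
      E (Γ × I)) (1, i)).re := by
    filter_upwards [eventually_ge_atTop 1] with n hn1
    rw [hval n, ← Complex.ofReal_natCast, ← Complex.ofReal_inv, Complex.re_ofReal_mul,
      Complex.re_sum]
    have h1 : (n : ℝ) ≤ ∑ k ∈ Finset.range n, (tr (f ^ k)).re := by
      calc (n : ℝ) = ∑ k ∈ Finset.range n, (1 : ℝ) := by simp
        _ ≤ _ := Finset.sum_le_sum fun k _ => hftr k
    have h2 : (0 : ℝ) < n := by exact_mod_cast hn1
    rw [← inv_mul_cancel₀ h2.ne']
    exact mul_le_mul_of_nonneg_left h1 (inv_nonneg.2 h2.le)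
  have := ge_of_tendsto hre hle
  simp at this
  linarith

theorem exists_ker (hc : Fintype.card J < Fintype.card I) (T : E (Γ × I) →L[ℂ] E (Γ × J))
    (hT : Eqv T) : ∃ c, c ≠ 0 ∧ T c = 0 := by
  by_contra hcon
  push Not at hcon
  have hpos : 0 < ‖T‖ + 1 := by positivity
  refine ker_aux hc (((‖T‖ + 1 : ℝ) : ℂ)⁻¹ • T) ?_ ?_ ?_
  · intro u p q
    exact congrArg (fun z => ((‖T‖ + 1 : ℝ) : ℂ)⁻¹ * z) (hT u p q)
  · rw [norm_smul, norm_inv, Complex.norm_real, Real.norm_of_nonneg hpos.le, inv_mul_le_iff₀ hpos]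
    linarith
  · intro c h
    by_contra h0
    refine hcon c h0 ?_
    have h1 : ((‖T‖ + 1 : ℝ) : ℂ)⁻¹ • T c = 0 := h
    rcases smul_eq_zero.1 h1 with h2 | h2
    · exfalso
      rw [inv_eq_zero, Complex.ofReal_eq_zero] at h2
      exact hpos.ne' h2
    · exact h2

end

/-! ### Convolution operators -/

theorem summable_prod_fin {Γ J : Type} [Fintype J] {f : Γ × J → ℝ} (hf : ∀ p, 0 ≤ f p)
    (h : ∀ j, Summable fun x => f (x, j)) :
    Summable f ∧ ∑' p, f p = ∑ j, ∑' x, f (x, j) := by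
  have hs : Summable f := by
    refine (summable_prod_of_nonneg hf).2 ⟨fun x => Summable.of_finite, ?_⟩
    simp only [tsum_fintype]
    exact summable_sum fun j _ => h j
  refine ⟨hs, ?_⟩
  rw [hs.tsum_prod]
  simp only [tsum_fintype]
  exact Summable.tsum_finsetSum fun j _ => h j

section
variable {Γ : Type} [Group Γ]

/-- the matrix of the convolution operator -/
def cm {I K : Type} (t : I → K → Γ → ℂ) (p : Γ × K) (q : Γ × I) : ℂ :=
  t q.2 p.2 (q.1⁻¹ * p.1)

/-- the bound -/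
def cR {I K : Type} [Fintype I] [Fintype K] (t : I → K → Γ → ℂ) : ℝ :=
  ∑ g : I, ∑ k : K, ∑' u, ‖t g k u‖

theorem cm_sch {I K : Type} [Fintype I] [Fintype K] (t : I → K → Γ → ℂ)
    (ht : ∀ g k, Summable fun u => ‖t g k u‖) : Sch (cm t) (cR t) := by
  have hrow : ∀ (p : Γ × K) (g : I), Summable fun h : Γ => ‖cm t p (h, g)‖ := by
    intro p g
    have h1 := ((Equiv.inv Γ).trans (Equiv.mulRight p.1)).summable_iff.2 (ht g p.2)
    exact h1
  have hrow' : ∀ (p : Γ × K) (g : I), ∑' h : Γ, ‖cm t p (h, g)‖ = ∑' u, ‖t g p.2 u‖ := by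
    intro p g
    exact ((Equiv.inv Γ).trans (Equiv.mulRight p.1)).tsum_eq fun u => ‖t g p.2 u‖
  have hcol : ∀ (q : Γ × I) (k : K), Summable fun γ : Γ => ‖cm t (γ, k) q‖ := by
    intro q k
    exact (Equiv.mulLeft q.1⁻¹).summable_iff.2 (ht q.2 k)
  have hcol' : ∀ (q : Γ × I) (k : K), ∑' γ : Γ, ‖cm t (γ, k) q‖ = ∑' u, ‖t q.2 k u‖ := by
    intro q k
    exact (Equiv.mulLeft q.1⁻¹).tsum_eq fun u => ‖t q.2 k u‖
  have hnn : ∀ (g : I) (k : K), 0 ≤ ∑' u, ‖t g k u‖ := fun g k =>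
    tsum_nonneg fun u => norm_nonneg _
  refine ⟨Finset.sum_nonneg fun g _ => Finset.sum_nonneg fun k _ => hnn g k, ?_, ?_, ?_, ?_⟩
  · intro p
    exact (summable_prod_fin (f := fun q => ‖cm t p q‖) (fun q => norm_nonneg _) (hrow p)).1
  · intro p
    have h1 := (summable_prod_fin (f := fun q => ‖cm t p q‖) (fun q => norm_nonneg _)
      (hrow p)).2
    have h2 : ∀ g : I, ∑' u, ‖t g p.2 u‖ ≤ ∑ k : K, ∑' u, ‖t g k u‖ := fun g =>
      Finset.single_le_sum (f := fun k => ∑' u, ‖t g k u‖) (fun k _ => hnn g k)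
        (Finset.mem_univ p.2)
    calc ∑' q, ‖cm t p q‖ = ∑ g : I, ∑' u, ‖t g p.2 u‖ := by
          rw [h1]; exact Finset.sum_congr rfl fun g _ => hrow' p g
      _ ≤ cR t := Finset.sum_le_sum fun g _ => h2 g
  · intro q
    exact (summable_prod_fin (f := fun p => ‖cm t p q‖) (fun q => norm_nonneg _) (hcol q)).1
  · intro q
    have h1 := (summable_prod_fin (f := fun p => ‖cm t p q‖) (fun q => norm_nonneg _)
      (hcol q)).2
    have h2 : ∑ k : K, ∑' u, ‖t q.2 k u‖ ≤ ∑ g : I, ∑ k : K, ∑' u, ‖t g k u‖ :=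
      Finset.single_le_sum (f := fun g : I => ∑ k : K, ∑' u, ‖t g k u‖)
        (fun g _ => Finset.sum_nonneg fun k _ => hnn g k) (Finset.mem_univ q.2)
    calc ∑' p, ‖cm t p q‖ = ∑ k : K, ∑' u, ‖t q.2 k u‖ := by
          rw [h1]; exact Finset.sum_congr rfl fun k _ => hcol' q k
      _ ≤ cR t := h2

theorem cm_eqv {I K : Type} [Fintype I] [Fintype K] (t : I → K → Γ → ℂ)
    (h : Sch (cm t) (cR t)) : Eqv (opm (cm t) (cR t) h) := by
  intro u p q
  rw [opm_dl, opm_dl]
  change t q.2 p.2 ((u * q.1)⁻¹ * (u * p.1)) = t q.2 p.2 (q.1⁻¹ * p.1)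
  congr 1
  group

theorem conv {I K : Type} [Fintype I] [Fintype K] (hcard : Fintype.card K < Fintype.card I)
    (t : I → K → Γ → ℂ) (ht : ∀ g k, Summable fun u => ‖t g k u‖) :
    ∃ c : E (Γ × I), c ≠ 0 ∧ ∀ k γ, ∑' h, ∑ g : I, c (h, g) * t g k (h⁻¹ * γ) = 0 := by
  have hS := cm_sch t ht
  obtain ⟨c, hc, hTc⟩ := exists_ker hcard (opm (cm t) (cR t) hS) (cm_eqv t hS)
  refine ⟨c, hc, fun k γ => ?_⟩
  have h1 : opm (cm t) (cR t) hS c (γ, k) = 0 := by rw [hTc]; rfl
  rw [opm_apply] at h1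
  have h2 : Summable fun q : Γ × I => cm t (γ, k) q * c q := (hS.sm c (γ, k)).of_norm
  rw [h2.tsum_prod] at h1
  simp only [tsum_fintype] at h1
  rw [← h1]
  refine tsum_congr fun h => ?_
  refine Finset.sum_congr rfl fun g _ => ?_
  rw [mul_comm]
  rfl

open Classical in
/-- extension by zero -/
def cf (S : Finset Γ) (c : E (Γ × S)) (h g : Γ) : ℂ := if hg : g ∈ S then c (h, ⟨g, hg⟩) else 0

omit [Group Γ] in
theorem cf_mem (S : Finset Γ) (c : E (Γ × S)) (h : Γ) (g : S) : cf S c h g = c (h, g) :=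
  dif_pos g.2

theorem main [Infinite Γ] (K : Type) [Fintype K] (t : Γ → K → Γ → ℂ)
    (ht : ∀ g k, Summable fun u => ‖t g k u‖) :
    ∃ (S : Finset Γ) (c : Γ → Γ → ℂ), (∀ h g, g ∉ S → c h g = 0) ∧ (∃ h g, c h g ≠ 0) ∧
      (Summable fun h => ∑ g ∈ S, ‖c h g‖ ^ 2) ∧
      ∀ (k : K) (γ : Γ), ∑' h, ∑ g ∈ S, c h g * t g k (h⁻¹ * γ) = 0 := by
  classical
  obtain ⟨S, hS⟩ := Infinite.exists_subset_card_eq Γ (Fintype.card K + 1)
  have hcard : Fintype.card K < Fintype.card S := by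
    rw [Fintype.card_coe, hS]; exact Nat.lt_succ_self _
  obtain ⟨c, hc, hTc⟩ := conv hcard (fun (g : S) => t g) fun g k => ht g k
  refine ⟨S, cf S c, ?_, ?_, ?_, ?_⟩
  · intro h g hg
    exact dif_neg hg
  · by_contra hcon
    push Not at hcon
    apply hc
    apply lp.ext
    funext q
    have := hcon q.1 q.2
    rw [cf_mem] at this
    exact this
  · have h1 : Summable fun q : Γ × S => ‖c q‖ ^ 2 := by
      have := (lp.memℓp c).summable (by norm_num)
      simpa using this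
    have h2 := h1.prod
    simp only [tsum_fintype] at h2
    refine h2.congr fun h => ?_
    rw [← Finset.sum_coe_sort S]
    refine Finset.sum_congr rfl fun g _ => ?_
    rw [cf_mem]
  · intro k γ
    refine Eq.trans (tsum_congr fun h => ?_) (hTc k γ)
    rw [← Finset.sum_coe_sort S]
    refine Finset.sum_congr rfl fun g _ => ?_
    rw [cf_mem]

end

end Vale.Agent.P284.H574
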