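import Vale.Agent.P284.H894.Spec
import Vale.Agent.P284.H574.Ker

/-! # P284: block C -/

namespace Vale.Agent.P284.H574

theorem cStmt : Vale.Agent.P284.H894.CStmt := by
  intro Γ K _ _ _ t ht
  exact main K t ht

end Vale.Agent.P284.H574
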